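import Vale.Agent.P235.H606.ADefs
import Vale.Agent.P235.R2.H483.Final

/-!
# Packing theorem: large complete graphs are bad (helper23)
-/

set_option autoImplicit false

namespace Vale.Agent.P235.H23

open SimpleGraph Vale.Agent.P235 Vale.Agent.P235.H134

/-- every graph on `n` vertices is a minor of a graph with a `K_n` minor -/
theorem minor_of_top {W V : Type} [Finite W] (H : SimpleGraph W) {G : SimpleGraph V} {n : ℕ}
    (hn : Nat.card W = n) (h : IsMinor (⊤ : SimpleGraph (Fin n)) G) : IsMinor H G := by
  subst hn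
  obtain ⟨μ, h1, h2, h3⟩ := h
  have e : W ≃ Fin (Nat.card W) := Finite.equivFin W
  refine ⟨fun a => μ (e a), fun a => h1 (e a), fun a b hab => h2 _ _ (e.injective.ne hab),
    fun a b hab => h3 _ _ ?_⟩
  rw [top_adj]
  exact e.injective.ne hab.ne

theorem badKStmt (hM : H606.MonoStmt) : H606.BadKStmt := by
  intro C
  set D : ℝ := 2 * max C 1 with hD
  have hD1 : 1 ≤ D := by
    have := le_max_right C 1
    rw [hD]
    linarith
  obtain ⟨k, hk⟩ := pow_unbounded_of_one_lt (7 * D) (show (1 : ℝ) < 5 / 4 by norm_num)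
  have hk' : D < (5 / 4) ^ k / 7 := by
    rw [lt_div_iff₀ (by norm_num)]
    linarith
  by_contra hno
  refine R2.H483.exp_lower hD1 hk' fun W _ H hc _ => ?_
  by_contra hd
  have : Nonempty W := hc.nonempty
  refine hno ⟨Nat.card W, Nat.card_pos, fun V _ G hG hm hdG => hd ?_⟩
  have hmono : DistortionLE G (max C 1) := hdG.mono (le_max_left _ _)
  exact hM V W G H (max C 1) (le_max_right _ _) hG hc (minor_of_top H rfl hm) hmono

end Vale.Agent.P235.H23
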