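import Vale.Agent.P235.H830.QDefs

/-!
# P235, row (IND): four of sixteen (helper23)
-/

set_option autoImplicit false

namespace Vale.Agent.P235.H23

open Finset Classical in
theorem ind_aux {α : Type} (f : α → Set α) (hf : ∀ k, (f k).ncard ≤ 2) (hfin : ∀ k, (f k).Finite)
    (n : ℕ) : ∀ S : Finset α, 5 * n + 1 ≤ S.card →
      ∃ T : Finset α, T ⊆ S ∧ T.card = n + 1 ∧ ∀ a ∈ T, ∀ b ∈ T, a ≠ b → b ∉ f a := by
  induction n with
  | zero =>
    intro S hS
    obtain ⟨a, ha⟩ := Finset.card_pos.1 (show 0 < S.card by omega)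
    refine ⟨{a}, Finset.singleton_subset_iff.2 ha, Finset.card_singleton a, ?_⟩
    intro x hx y hy hxy
    rw [Finset.mem_singleton] at hx hy
    exact absurd (hx.trans hy.symm) hxy
  | succ n ih =>
    intro S hS
    have key : ∃ v ∈ S, (S.filter fun w => w ∈ f v ∨ v ∈ f w).card ≤ 4 := by
      by_contra hno
      push Not at hno
      have h1 : ∑ v ∈ S, 5 ≤ ∑ v ∈ S, ((S.filter fun w => w ∈ f v).card +
          (S.filter fun w => v ∈ f w).card) := by
        refine Finset.sum_le_sum fun v hv => ?_
        refine (Nat.succ_le_of_lt (hno v hv)).trans ?_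
        rw [Finset.filter_or]
        exact Finset.card_union_le _ _
      have h2 : ∑ v ∈ S, (S.filter fun w => v ∈ f w).card =
          ∑ v ∈ S, (S.filter fun w => w ∈ f v).card := by
        have := Finset.sum_card_bipartiteAbove_eq_sum_card_bipartiteBelow
          (s := S) (t := S) (fun v w => v ∈ f w)
        exact this
      have h3 : ∑ v ∈ S, (S.filter fun w => w ∈ f v).card ≤ ∑ v ∈ S, 2 := by
        refine Finset.sum_le_sum fun v _ => ?_
        refine le_trans ?_ (hf v)
        rw [← Set.ncard_coe_finset]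
        refine Set.ncard_le_ncard (fun w hw => ?_) (hfin v)
        exact (Finset.mem_filter.1 hw).2
      rw [Finset.sum_add_distrib, h2] at h1
      rw [Finset.sum_const, smul_eq_mul] at h1 h3
      omega
    obtain ⟨v, hv, h4⟩ := key
    have h5 : 5 * n + 1 ≤ (S.filter fun w => w ≠ v ∧ ¬ (w ∈ f v ∨ v ∈ f w)).card := by
      have h6 : S ⊆ (S.filter fun w => w ≠ v ∧ ¬ (w ∈ f v ∨ v ∈ f w)) ∪
          (insert v (S.filter fun w => w ∈ f v ∨ v ∈ f w)) := by
        intro w hw
        rw [Finset.mem_union, Finset.mem_insert, Finset.mem_filter, Finset.mem_filter]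
        by_cases h7 : w = v
        · exact Or.inr (Or.inl h7)
        · by_cases h8 : w ∈ f v ∨ v ∈ f w
          · exact Or.inr (Or.inr ⟨hw, h8⟩)
          · exact Or.inl ⟨hw, h7, h8⟩
      have h9 := (Finset.card_le_card h6).trans (Finset.card_union_le _ _)
      have h10 := Finset.card_insert_le v (S.filter fun w => w ∈ f v ∨ v ∈ f w)
      omega
    obtain ⟨T, hT1, hT2, hT3⟩ := ih _ h5
    have hvT : v ∉ T := fun h => (Finset.mem_filter.1 (hT1 h)).2.1 rfl
    refine ⟨insert v T, ?_, by rw [Finset.card_insert_of_notMem hvT, hT2], ?_⟩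
    · refine Finset.insert_subset hv (hT1.trans (Finset.filter_subset _ _))
    · intro a ha b hb hab
      rw [Finset.mem_insert] at ha hb
      rcases ha with rfl | ha
      · rcases hb with rfl | hb
        · exact absurd rfl hab
        · exact fun h => (Finset.mem_filter.1 (hT1 hb)).2.2 (Or.inl h)
      · rcases hb with rfl | hb
        · exact fun h => (Finset.mem_filter.1 (hT1 ha)).2.2 (Or.inr h)
        · exact hT3 a ha b hb hab

/-- **(IND)** -/
theorem ind4 : H830.Ind4Stmt := by
  intro f hf
  obtain ⟨T, -, h1, h2⟩ := ind_aux f hf (fun k => Set.toFinite _) 3 Finset.univ (by simp)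
  refine ⟨fun i => T.orderEmbOfFin h1 i, fun i j h => (T.orderEmbOfFin h1).injective h, ?_⟩
  intro i j hij
  exact h2 _ (T.orderEmbOfFin_mem h1 i) _ (T.orderEmbOfFin_mem h1 j)
    fun h => hij ((T.orderEmbOfFin h1).injective h)

end Vale.Agent.P235.H23
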